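import Vale.Agent.P300.H266.Sys
import Vale.Agent.P300.H921.TorMod
import Vale.Agent.P300.PROJ.Node

/-!
# P300: the system of node charts (helper266's `NodeSys`) of a value of helper921's `Lifts`
-/

set_option autoImplicit false

open Set Topology Filter Complex
open Vale.Agent.P300.H753 (Rp Om Omp theta isOpen_Omp)

namespace Vale.Agent.P300.H377

open Vale.Agent.P300.Mod (toP toPH continuous_toP kapU kapU_val Lifts OmE)

/-! ### the two regions -/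

theorem mem_R_iff (w : Fin 2 → ℂ) : w ∈ H266.R ↔ toP w ∈ H142.R := by
  have h : ∀ z : ℂ, z ∉ H266.Ray ↔ ∀ t : ℝ, 1 ≤ t → z ≠ t := by
    intro z
    constructor
    · rintro h t ht rfl
      exact h ⟨by simpa using ht, by simp⟩
    · rintro h ⟨h1, h2⟩
      exact h z.re h1 (Complex.ext (by simp) (by simpa using h2))
  show (w 0 ∉ H266.Ray ∧ w 1 ∉ H266.Ray ∧ w 0 * w 1 ∉ H266.Ray) ↔
    ∀ t : ℝ, 1 ≤ t → w 0 ≠ t ∧ w 1 ≠ t ∧ w 0 * w 1 ≠ t
  rw [h, h, h]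
  constructor
  · rintro ⟨h1, h2, h3⟩ t ht
    exact ⟨h1 t ht, h2 t ht, h3 t ht⟩
  · intro h
    exact ⟨fun t ht => (h t ht).1, fun t ht => (h t ht).2.1, fun t ht => (h t ht).2.2⟩

theorem mem_V_iff (w : Fin 2 → ℂ) : w ∈ H266.V ↔ toP w ∈ H142.W := Iff.rfl

theorem toP_pw (p q : ℕ) (x : Fin 2 → ℂ) : toP (H266.pw p q x) = H753.pw p q (toP x) := rfl

theorem mem_Of_iff (p q : ℕ) (x : Fin 2 → ℂ) : x ∈ H266.Of p q ↔ toP x ∈ Om H142.R p q :=
  mem_R_iff _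

theorem Of_eq (p q : ℕ) : H266.Of p q = OmE H142.R p q := by
  ext x
  exact mem_Of_iff p q x

theorem mem_Oo_iff (p q : ℕ) (x : Fin 2 → ℂ) : x ∈ H266.Oo p q ↔ toP x ∈ Omp H142.R p q := by
  show (H266.pw p q x ∈ H266.R ∧ x 0 * x 1 ≠ 0) ↔ toP x ∈ Om H142.R p q ∧ x 0 ≠ 0 ∧ x 1 ≠ 0
  rw [mul_ne_zero_iff, mem_R_iff]
  exact Iff.rfl

/-! ### coordinates of the node `0` -/

/-- The coordinates of the node `0`. -/
noncomputable def co0 (z : ℂ × ℂ) : Fin 2 → ℂ := toPH.symm (Spec.kapInv 0 z)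

theorem toP_co0 (z : ℂ × ℂ) : toP (co0 z) = Spec.kapInv 0 z := rfl

theorem continuousOn_co0 : ContinuousOn co0 H142.U := by
  have hc : ContinuousOn (Spec.kapInv 0) H142.U := fun q hq =>
    (Spec.analyticAt_kapInv 0 hq).continuousAt.continuousWithinAt
  exact toPH.symm.continuous.comp_continuousOn hc

theorem co0_mem {z : ℂ × ℂ} (hz : z ∈ H142.U) : co0 z ∈ H266.V := by
  rw [mem_V_iff, toP_co0]
  exact Spec.kapInv_mem 0 hz

theorem kap_co0 {z : ℂ × ℂ} (hz : z ∈ H142.U) : H142.kap 0 (toP (co0 z)) = z := by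
  rw [toP_co0, Spec.kap_kapInv 0 hz]

theorem co0_kap0 {w : Fin 2 → ℂ} (hw : w ∈ H266.V) : co0 (H142.kap 0 (toP w)) = w := by
  have h1 : toP (co0 (H142.kap 0 (toP w))) = toP w := by
    rw [toP_co0]
    exact Spec.kapInv_kap 0 hw
  exact toPH.injective h1

theorem co0_injOn : InjOn co0 H142.U := by
  intro z hz z' hz' h
  rw [← kap_co0 hz, ← kap_co0 hz', h]

/-- The coordinates of the node `0` of the points of the chart `ν`. -/
theorem co0_kap (ν : Fin 15) {w : Fin 2 → ℂ} (hw : w ∈ H266.V) :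
    co0 (H142.kap ν (toP w)) = PROJ.gN ν w := by
  have h2 : H142.kap ν (toP w) = H142.kap 0 (toP (PROJ.gN ν w)) := PROJ.kap_eq ν hw
  rw [h2, co0_kap0 ((PROJ.adm_node ν).maps w hw)]

/-- The points of `U` in the chart `ν`. -/
theorem kap_gN' (ν : Fin 15) {z : ℂ × ℂ} (hz : z ∈ H142.U) :
    H142.kap ν (toP (PROJ.gN' ν (co0 z))) = z := by
  have hV := (PROJ.adm_node ν).maps' _ (co0_mem hz)
  have h1 : co0 (H142.kap ν (toP (PROJ.gN' ν (co0 z)))) = co0 z := by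
    rw [co0_kap ν hV]
    exact (PROJ.adm_node ν).right _ (co0_mem hz)
  exact co0_injOn (Spec.kap_mem ν hV) hz h1

/-! ### the system of node charts -/

/-- A model of `U` with its node charts. -/
structure UModel (UU : Type) (kk : Fin 15 → ℂ × ℂ → UU) where
  /-- the coordinates -/
  c : UU → ℂ × ℂ
  inj : Function.Injective c
  mem : ∀ z, c z ∈ H142.U
  kk_c : ∀ ν, ∀ w ∈ H142.W, c (kk ν w) = H142.kap ν w

variable {X0 S UU : Type} [TopologicalSpace X0] [TopologicalSpace UU] {pr : X0 → UU}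
  {kk : Fin 15 → ℂ × ℂ → UU}

/-- The coordinates of the node `0` on the covering. -/
noncomputable def prE (C : UModel UU kk) (pr : X0 → UU) (e : X0) : Fin 2 → ℂ := co0 (C.c (pr e))

/-- The system of node charts of the covering. -/
noncomputable def nodeSys (C : UModel UU kk) (D : Lifts H142.R kk pr S) :
    H266.NodeSys X0 (prE C pr) where
  Nd := Fin 15
  g := PROJ.gN
  g' := PROJ.gN'
  m := PROJ.mN
  adm := PROJ.adm_node
  ι ν := Quotient (Mod.orb (D.a ν) (D.b ν) (D.node ν).comm)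
  p ν s := D.pp ⟨ν, s⟩
  q ν s := D.qq ⟨ν, s⟩
  p_pos ν s := (D.ord' ⟨ν, s⟩).p0
  q_pos ν s := (D.ord' ⟨ν, s⟩).q0
  θ ν s := Mod.th (D.L ν) (D.pp ⟨ν, s⟩) (D.qq ⟨ν, s⟩) (D.rep ⟨ν, s⟩)
  cont ν s := by
    have h := (D.node ν).continuousOn_theta (D.ord' ⟨ν, s⟩)
    exact h.comp continuous_toP.continuousOn fun x hx => (mem_Oo_iff _ _ x).1 hx
  inj ν s := by
    intro x hx y hy hxy
    have h := (D.node ν).injOn_theta (D.ord' ⟨ν, s⟩) ((mem_Oo_iff _ _ x).1 hx)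
      ((mem_Oo_iff _ _ y).1 hy) hxy
    exact toPH.injective h
  pr_θ ν s x hx := by
    have h1 := (mem_Oo_iff _ _ x).1 hx
    have h2 : pr (Mod.th (D.L ν) (D.pp ⟨ν, s⟩) (D.qq ⟨ν, s⟩) (D.rep ⟨ν, s⟩) x) =
        kk ν (toP (H266.pw (D.pp ⟨ν, s⟩) (D.qq ⟨ν, s⟩) x)) := (D.node ν).pr_theta h1
    show co0 (C.c (pr _)) = _
    rw [h2, C.kk_c ν _ (H266.pw_mem_V hx)]
    exact co0_kap ν (H266.pw_mem_V hx)
  disj ν s s' hne x hx y hy h := by
    have h1 : (⟨ν, s⟩ : D.I) ≠ ⟨ν, s'⟩ := by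
      intro he
      exact hne (eq_of_heq (Sigma.mk.inj he).2)
    have h2 := D.disj_h (i := ⟨ν, s⟩) (j := ⟨ν, s'⟩) rfl h1
    have e1 := D.range_h (⟨ν, s⟩ : D.I)
    have e2 := D.range_h (⟨ν, s'⟩ : D.I)
    have h3 : theta (D.L ν) (D.pp ⟨ν, s⟩) (D.qq ⟨ν, s⟩) (D.rep ⟨ν, s⟩) (toP x) ∈
        range (D.h (⟨ν, s⟩ : D.I)) := e1.symm ▸ ⟨_, (mem_Oo_iff _ _ x).1 hx, rfl⟩
    have h4 : theta (D.L ν) (D.pp ⟨ν, s⟩) (D.qq ⟨ν, s⟩) (D.rep ⟨ν, s⟩) (toP x) ∈
        range (D.h (⟨ν, s'⟩ : D.I)) := e2.symm ▸ ⟨_, (mem_Oo_iff _ _ y).1 hy, h.symm⟩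
    exact Set.disjoint_left.1 h2 h3 h4
  surj ν e he := by
    set w : ℂ × ℂ := toP (PROJ.gN' ν (prE C pr e)) with hw
    have hU := C.mem (pr e)
    have hwW : w ∈ H142.W := (PROJ.adm_node ν).maps' _ (co0_mem hU)
    have hwR : w ∈ H142.R := (mem_R_iff _).1 he
    have hwp : w ∈ Rp H142.R := ⟨hwR, hwW.1, hwW.2.1⟩
    have h1 : kk ν w = pr e := by
      apply C.inj
      rw [C.kk_c ν w hwW]
      exact kap_gN' ν hU
    have ex : w = (exp (log w.1), exp (log w.2)) := by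
      rw [Complex.exp_log hwp.2.1, Complex.exp_log hwp.2.2]
    have hm : (log w.1, log w.2) ∈ H753.Rt H142.R := by
      show (exp (log w.1), exp (log w.2)) ∈ H142.R
      rw [← ex]
      exact hwR
    obtain ⟨s, hs⟩ := (D.node ν).Lsurj _ hm e (by rw [← h1]; exact congrArg _ ex)
    have h2 := D.L_mem ν hm s
    rw [D.range_h] at h2
    obtain ⟨y, hy, hy2⟩ := h2
    refine ⟨(D.mkI ν s).2, toPH.symm y, (mem_Oo_iff _ _ _).2 hy, ?_⟩
    rw [← hs]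
    exact hy2

/-- 921's model of `U`. -/
def uModel921 : UModel H142.U Mod.kapU where
  c := Subtype.val
  inj := Subtype.val_injective
  mem z := z.2
  kk_c _ _ hw := Mod.kapU_val hw

end Vale.Agent.P300.H377
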