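import Vale.Agent.P300.H377.NodeSys
import Vale.Agent.P300.Spec.Geo

/-!
# P300: the system of node charts over helper37's total spaces `r.Tot S`
-/

set_option autoImplicit false

namespace Vale.Agent.P300.H377

/-- helper210's model of `U` (helper37's `UT`). -/
noncomputable def uModelE : UModel TOR.Arr.UT (fun ν : Fin 15 => Spec.kapU ν.castSucc) where
  c := Subtype.val
  inj := Subtype.val_injective
  mem z := z.2
  kk_c ν w hw := by
    rw [Spec.kapU_coe ν.castSucc hw, Spec.kapE_castSucc]

end Vale.Agent.P300.H377
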