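import Vale.Agent.P300.H377.NodeSys
import Vale.Agent.P300.PROJ.Inst
import Vale.Agent.P300.H749.Inst

/-!
# P300: helper266's jets on the completion of a covering, in helper414's form `JetsOn`
-/

set_option autoImplicit false
set_option linter.all false

open Set Topology Filter
open scoped Manifold ContDiff LinearAlgebra.Projectivization

namespace Vale.Agent.P300.H377

open Vale.Agent.P300.Mod (toP toPH continuous_toP Lifts OmE YData)
open Vale.Agent.P300.Cpx (E2)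

/-! ### the sections -/

section sections

variable {X0 : Type} [TopologicalSpace X0] {pr : X0 → Fin 2 → ℂ}

/-- The space of sections. -/
def secSub (D : H266.NodeSys X0 pr) (k : ℕ) : Submodule ℂ (X0 → ℂ) where
  carrier := {F | D.IsSection k F}
  add_mem' := by
    intro F F' h h' ν s
    obtain ⟨G, hG⟩ := h ν s
    obtain ⟨G', hG'⟩ := h' ν s
    refine ⟨G + G', hG.holo.add hG'.holo, fun x hx => ?_⟩
    rw [Pi.add_apply, hG.eq x hx, hG'.eq x hx, Pi.add_apply]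
    ring
  zero_mem' := by
    intro ν s
    refine ⟨0, differentiableOn_const 0, fun x hx => ?_⟩
    simp
  smul_mem' := by
    intro c F h ν s
    obtain ⟨G, hG⟩ := h ν s
    refine ⟨c • G, hG.holo.const_smul c, fun x hx => ?_⟩
    rw [Pi.smul_apply, hG.eq x hx, Pi.smul_apply, smul_eq_mul, smul_eq_mul]
    ring

theorem mem_secSub {D : H266.NodeSys X0 pr} {k : ℕ} {F : X0 → ℂ} :
    F ∈ secSub D k ↔ D.IsSection k F := Iff.rfl

/-- The statement of helper266's theorem `NodeSys.jets`. -/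
def JetsProp (D : H266.NodeSys X0 pr) : Prop :=
  ∀ (ν : D.Nd) (s₀ : D.ι ν) (x₀ : Fin 2 → ℂ), x₀ ∈ D.Full ν s₀ →
    ∀ (a : ℂ) (L : (Fin 2 → ℂ) →L[ℂ] ℂ), ∃ F : X0 → ℂ, D.IsSection 4 F ∧
      ∀ (s : D.ι ν) (y : Fin 2 → ℂ), y ∈ D.Full ν s → D.pwr ν s y = D.pwr ν s₀ x₀ →
        ∀ G, D.Ext ν s 4 F G →
          (s = s₀ → y = x₀ → G y = a ∧ fderiv ℂ G y = L) ∧
          (¬ (s = s₀ ∧ y = x₀) → G y = 0 ∧ fderiv ℂ G y = 0)

end sections

variable {X0 S UU Y : Type} [TopologicalSpace X0] [TopologicalSpace UU] [TopologicalSpace Y]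
  {pr : X0 → UU} {kk : Fin 15 → ℂ × ℂ → UU} (UM : UModel UU kk)
  (D : Lifts H142.R kk pr S) (E : YData H142.R kk Y)

/-- The piece as a map on `ℂ²`. -/
noncomputable def thI (i : D.I) : E2 → X0 := Mod.th (D.L i.1) (D.pp i) (D.qq i) (D.rep i)

/-- The multiplier of a piece. -/
noncomputable def muI (i : D.I) (z : E2) : ℂ := (nodeSys UM D).fac i.1 i.2 4 z

/-- The point of the node chart under a point of a piece. -/
noncomputable def ptI (i : D.I) (z : E2) : Fin 2 → ℂ := H266.pw (D.pp i) (D.qq i) z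

theorem full_eq (i : D.I) : (nodeSys UM D).Full i.1 i.2 = OmE H142.R (D.pp i) (D.qq i) :=
  Of_eq _ _

/-- The coordinates of a point of a model. -/
def vl (i : D.I) (p : (D.models E).M i) : E2 := Subtype.val (p := (· ∈ OmE H142.R (D.pp i) (D.qq i))) p

theorem vl_mem (i : D.I) (p : (D.models E).M i) : toP (ptI D i (vl D E i p)) ∈ H142.R :=
  (show D.M i from p).2

section cpx

variable {C : Cpx.CpxModels (D.models E)} (hΩ : ∀ i : D.I, C.Ω i = OmE H142.R (D.pp i) (D.qq i))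
  (hφ : ∀ (i : D.I) (z : C.Ω i), vl D E i (C.φ i z) = z)

include hφ in
theorem thI_eq (i : (D.models E).I) (z : C.Ω i) (hz : C.φ i z ∈ (D.models E).M0 i) :
    thI D i z = (D.models E).h i ⟨C.φ i z, hz⟩ := by
  show thI D i z = thI D i (vl D E i (C.φ i z))
  rw [hφ i z]

include hΩ hφ in
theorem om0_eq (i : D.I) : PROJ.om0 C i = (nodeSys UM D).Int i.1 i.2 := by
  ext z
  constructor
  · rintro ⟨h, h0⟩
    have h1 : z ∈ OmE H142.R (D.pp i) (D.qq i) := by rw [← hΩ i]; exact h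
    have h2 : vl D E i (C.φ i ⟨z, h⟩) 0 ≠ 0 ∧ vl D E i (C.φ i ⟨z, h⟩) 1 ≠ 0 := h0
    rw [hφ i ⟨z, h⟩] at h2
    exact (mem_Oo_iff _ _ z).2 ⟨h1, h2.1, h2.2⟩
  · intro hz
    obtain ⟨h1, h2, h3⟩ := (mem_Oo_iff _ _ z).1 hz
    have h4 : z ∈ C.Ω i := by rw [hΩ i]; exact h1
    refine ⟨h4, ?_⟩
    show vl D E i (C.φ i ⟨z, h4⟩) 0 ≠ 0 ∧ vl D E i (C.φ i ⟨z, h4⟩) 1 ≠ 0
    rw [hφ i ⟨z, h4⟩]
    exact ⟨h2, h3⟩

include hΩ in
theorem Om_eq (i : D.I) : C.Ω i = (nodeSys UM D).Full i.1 i.2 := by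
  rw [hΩ i, full_eq]

include hφ in
theorem pt_eq (i j : (D.models E).I) (z : C.Ω i) (w : C.Ω j)
    (hb : (D.models E).b i = (D.models E).b j)
    (hm : (D.models E).m i (C.φ i z) = (D.models E).m j (C.φ j w)) :
    ptI D j w = ptI D i z := by
  change D.I at i
  change D.I at j
  obtain ⟨ν, i⟩ := i
  obtain ⟨ν', j⟩ := j
  obtain rfl : ν = ν' := hb
  have h1 : E.kY ν (toP (ptI D ⟨ν, i⟩ (vl D E ⟨ν, i⟩ (C.φ ⟨ν, i⟩ z)))) =
      E.kY ν (toP (ptI D ⟨ν, j⟩ (vl D E ⟨ν, j⟩ (C.φ ⟨ν, j⟩ w)))) := hm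
  have h2 := E.inj ν (vl_mem D E ⟨ν, i⟩ (C.φ ⟨ν, i⟩ z)) (vl_mem D E ⟨ν, j⟩ (C.φ ⟨ν, j⟩ w)) h1
  rw [hφ ⟨ν, i⟩ z, hφ ⟨ν, j⟩ w] at h2
  exact toPH.injective h2.symm

include hΩ hφ in
/-- **Jets on the completion**, from helper266's theorem. -/
theorem jetsOn (hJ : JetsProp (nodeSys UM D)) :
    PROJ.JetsOn C (thI D) (muI UM D) (secSub (nodeSys UM D) 4) (ptI D) := by
  have hO : ∀ i : D.I, C.Ω i = (nodeSys UM D).Full i.1 i.2 := Om_eq UM D E hΩ
  have h0 : ∀ i : D.I, PROJ.om0 C i = (nodeSys UM D).Int i.1 i.2 := om0_eq UM D E hΩ hφ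
  -- extensions
  have hext : ∀ F, (nodeSys UM D).IsSection 4 F → ∀ i : D.I, ∃ G : E2 → ℂ,
      (nodeSys UM D).Ext i.1 i.2 4 F G ∧ DifferentiableOn ℂ G (C.Ω i) ∧
      ∀ z ∈ PROJ.om0 C i, G z = muI UM D i z * F (thI D i z) := by
    intro F hF i
    obtain ⟨G, hG⟩ := hF i.1 i.2
    refine ⟨G, hG, ?_, ?_⟩
    · rw [hO i]
      exact hG.holo
    · intro z hz
      rw [h0 i] at hz
      rw [hG.eq z hz, mul_comm]
      rfl
  constructor
  · intro F hF i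
    obtain ⟨G, -, h1, h2⟩ := hext F hF i
    exact ⟨G, h1, h2⟩
  · intro i z hz α L
    change D.I at i
    rw [hO i] at hz
    obtain ⟨F, hF, h⟩ := hJ i.1 i.2 z hz α L
    refine ⟨F, hF, ?_, ?_⟩
    · obtain ⟨G, hG, h1, h2⟩ := hext F hF i
      obtain ⟨h3, h4⟩ := (h i.2 z hz rfl G hG).1 rfl rfl
      exact ⟨G, h1, h2, h3, h4⟩
    · intro j w hw hb hpt hne
      change D.I at j
      rw [hO j] at hw
      obtain ⟨G, hG, h1, h2⟩ := hext F hF j
      refine ⟨G, h1, h2, ?_⟩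
      obtain ⟨ν, i⟩ := i
      obtain ⟨ν', j⟩ := j
      obtain rfl : ν' = ν := hb
      refine ((h j w hw hpt G hG).2 ?_).1
      rintro ⟨rfl, rfl⟩
      exact hne rfl rfl

include hΩ hφ in
/-- **The projective embedding of the completion.** -/
theorem exists_embedding [T2Space Y] [LocallyCompactSpace Y] (hJ : JetsProp (nodeSys UM D))
    [CompactSpace (D.models E).Cmp] [Nonempty (D.models E).Cmp]
    {ι : Type*} [Fintype ι] {c : ι → (D.models E).Cmp → OnePoint ℂ}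
    (hc : letI := C.atlas.charted; ∀ i, Emb.IsHolP1 E2 (c i))
    (hq : ∀ x y, (∀ i, c i x = c i y) → (D.models E).proj x = (D.models E).proj y) :
    letI := C.atlas.charted
    ∃ (N : ℕ) (Φ : (D.models E).Cmp → ℙ ℂ (Fin (N + 1) → ℂ)), Function.Injective Φ ∧
      IsProjectiveImmersion E2 Φ :=
  (jetsOn UM D E hΩ hφ hJ).exists_embedding C (thI_eq D E hφ)
    (fun i j z w hb hm => pt_eq D E hφ i j z w hb hm) hc hq

end cpx

/-- The projective embedding for helper749's `cpxModels`. -/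
theorem exists_embedding_cpxModels (hR0 : ((0 : ℂ), (0 : ℂ)) ∈ H142.R) (cU : UU → ℂ × ℂ)
    (kc : Fin 15 → ℂ × ℂ → ℂ × ℂ) (hkc : ∀ ν, ∀ w ∈ H753.Rp H142.R, cU (kk ν w) = kc ν w)
    (hd : ∀ ν, ∀ w ∈ H753.Rp H142.R, ∃ f' : (ℂ × ℂ) ≃L[ℂ] (ℂ × ℂ),
      HasFDerivAt (kc ν) (f' : (ℂ × ℂ) →L[ℂ] (ℂ × ℂ)) w)
    [T2Space Y] [LocallyCompactSpace Y] (hJ : JetsProp (nodeSys UM D))
    [CompactSpace (D.models E).Cmp] [Nonempty (D.models E).Cmp]
    {ι : Type*} [Fintype ι] {c : ι → (D.models E).Cmp → OnePoint ℂ}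
    (hc : letI := (Cpx.cpxModels D E hR0 cU kc hkc hd).atlas.charted; ∀ i, Emb.IsHolP1 E2 (c i))
    (hq : ∀ x y, (∀ i, c i x = c i y) → (D.models E).proj x = (D.models E).proj y) :
    letI := (Cpx.cpxModels D E hR0 cU kc hkc hd).atlas.charted
    ∃ (N : ℕ) (Φ : (D.models E).Cmp → ℙ ℂ (Fin (N + 1) → ℂ)), Function.Injective Φ ∧
      IsProjectiveImmersion E2 Φ :=
  exists_embedding UM D E (C := Cpx.cpxModels D E hR0 cU kc hkc hd) (fun _ => rfl)
    (fun _ _ => rfl) hJ hc hq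

end Vale.Agent.P300.H377
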